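import Vale.Agent.P146.H394.SumN3
import Vale.Agent.P146.H391.Sn2
import Vale.Agent.P146.H941.Good

set_option linter.all false

/-!
The sum over the stages, with the gain of the planted gauge: the final form.
-/

open MeasureTheory ProbabilityTheory Finset

namespace Vale.Agent.P146.H394

open Vale.Agent.P157.Lv Vale.Agent.P157.Lv.Sy
open Vale.Agent.P146.Ub.Ld Vale.Agent.P146.H784 Vale.Agent.P146.H785 Vale.Agent.P146.H425
open Vale.Agent.P157.Par (Path Exponents incr)
open Vale.Agent.P146.Gp.Avg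

/-- The good configurations exist. -/
theorem good2 : Good2 := fun k J q hJ hq h1 h2 => exists_good2 k J q hJ hq h1 h2

/-- The exponential inequality of the planted gauge, for the SK systems. -/
def PlSN : Prop :=
  ∀ (n K N l : ℕ) (m m' s : ℕ → ℝ) (β : ℝ), 1 ≤ K → WE K m → s 0 = 0 → N ≤ n → 0 < N →
    1 ≤ l → l < K → WE K m' → (∀ j, j ≠ l + 1 → m' j = m j) →
    H391.Pl (SN n K 1 m β N s) m' l

theorem rhoD_of (hPl : PlSN) : RhoD := by
  intro n K N l m m' s β hK hm hs0 hN hN0 hl1 hl hm' heq hlt hs hb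
  have hN0' : (0 : ℝ) < N := by exact_mod_cast hN0
  have hml : 0 < m (l + 1) := (SN_lin (n := n) (β := β) (N := N) (s := s) hK hm).reg.m_pos
    (l := l + 1) (by omega) (by
      show l + 1 ≤ K + 1
      omega)
  have hml1 : m (l + 1) ≤ 1 := by
    have key : ∀ j, j ≤ K + 1 → m (K + 1 - j) ≤ 1 := by
      intro j
      induction j with
      | zero => intro _; rw [Nat.sub_zero, hm.top]
      | succ j ih =>
        intro hj
        have h1 := hm.mono (K + 1 - (j + 1)) (by omega)
        rw [show K + 1 - (j + 1) + 1 = K + 1 - j by omega] at h1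
        exact h1.trans (ih (by omega))
    have h1 := key (K + 1 - (l + 1)) (by omega)
    rw [show K + 1 - (K + 1 - (l + 1)) = l + 1 by omega] at h1
    exact h1
  have hh : 0 < m' (l + 1) - m (l + 1) := by linarith
  have hs2 : 0 < s (l + 1) ^ 2 := by positivity
  have hb' : m (l + 1) * (m' (l + 1) - m (l + 1)) * (N * s (l + 1) ^ 2) ≤ 1 := by
    have h1 : m (l + 1) * (m' (l + 1) - m (l + 1)) * (N * s (l + 1) ^ 2) ≤
        1 * (m' (l + 1) - m (l + 1)) * (N * s (l + 1) ^ 2) := by gcongr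
    linarith
  have hP := hPl n K N l m m' s β hK hm hs0 hN hN0 hl1 hl hm' heq
  have h1 := H391.SN_rho_dD2_of (n := n) (β := β) hK hm hs0 hN hN0 hl1 hl hm' heq hlt hs hb' hP
  have h2 := H391.SN_dD2 (n := n) (β := β) hK hm hs0 hN hN0 hl1 hl hm' heq hlt hb' hP
  refine h1.trans (add_le_add ?_ le_rfl)
  have hv : 0 ≤ vr (SN n K 1 m β N s) (fun z _ => kf (SN n K 1 m β N s) l z) := by
    have hS := (SN_lin (n := n) (β := β) (N := N) (s := s) hK hm).reg
    exact vr_nonneg hS (Nh.fst (eg_kf hS hl))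
  have h3 : 0 ≤ DN n K m' β N s l - DN n K m β N s l := le_trans (by positivity) h2
  refine mul_le_mul_of_nonneg_right ?_ h3
  exact div_le_div_of_nonneg_right (by norm_num) (by positivity)

/-- **The sum over the stages.** -/
theorem sumN3 (hPl : PlSN) {n k J : ℕ} {β r lam G C0 C : ℝ} (hC : 0 ≤ C)
    (hr : 0 < r) (hr1 : r ≤ 1 / 2) (hlam : 0 < lam) (hJ : 0 < J)
    (h2 : 4 * (J : ℝ) * Real.exp (-((k : ℝ) / J)) ≤ 1)
    (chain : ∀ m : ℕ → ℝ, Exponents (k + 1) m → m 1 = r →
      G ≤ C0 + ∑ N ∈ Finset.Ico 1 n, C * VKs n k m β (sv lam r k) N) :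
    G ≤ C0 + ∑ N ∈ Finset.Ico 1 n, C * (24 / J + 4 / (J * (N * lam * r)) +
        2 * √(5 * Real.log (1 / r) / (J * (N * lam))) + 6400 * k / (J * (lam * N))) :=
  sumN3' (rhoD_of hPl) good2 hC hr hr1 hlam hJ h2 chain

end Vale.Agent.P146.H394
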