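import Vale.Agent.P146.H394.Sum3
import Vale.Agent.P146.H327.SumN

set_option linter.all false

/-!
The averaging lemma for fields whose strengths depend on the level: the slopes are divided by the
square of the strength.
-/

open MeasureTheory ProbabilityTheory Finset

namespace Vale.Agent.P146.H394

open Vale.Agent.P157.Lv Vale.Agent.P157.Lv.Sy
open Vale.Agent.P146.Ub.Ld Vale.Agent.P146.H784 Vale.Agent.P146.H785 Vale.Agent.P146.H425
open Vale.Agent.P157.Par (Path Exponents incr)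
open Vale.Agent.P146.Gp.Avg

variable {n k N L : ℕ} {β r lam : ℝ} {s : ℕ → ℝ}

/-- The slopes, divided by the squares of the strengths. -/
noncomputable def Dn (n : ℕ) (r : ℝ) (k L : ℕ) (β : ℝ) (N : ℕ) (s : ℕ → ℝ) :
    Fin k → (Fin k → ℕ) → ℝ :=
  fun i v => DN n (k + 1) (mw r k L v) β N s ((i : ℕ) + 1) / s ((i : ℕ) + 2) ^ 2

/-- **The hypotheses of the averaging lemma** for the normalised slopes. -/
theorem Dn_slp (hr : 0 < r) (hr1 : r < 1) (hs0 : s 0 = 0)
    (hs : ∀ l, 1 ≤ l → l ≤ k + 1 → 0 < s l) (hN : N ≤ n) (hN0 : 0 < N) :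
    Slp k L (N / 2) (Dn n r k L β N s) where
  mono := fun v hv hL b hb hup => by
    have hK : 1 ≤ k + 1 := by omega
    have hb1 := b.2
    have hL' : ∀ i, Function.update v b (v b + 1) i ≤ L + 1 := by
      intro i
      by_cases hi : i = b
      · subst hi
        rw [Function.update_self]
        omega
      · rw [Function.update_of_ne hi]
        exact hL i
    have hw := mw_WE (r := r) hr hr1.le hv hL
    have hw' := mw_WE (r := r) hr hr1.le hup hL'
    have hh : 0 < (1 - r) / ((L : ℝ) + 1) := div_pos (by linarith) (by positivity)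
    have heq : ∀ j, j ≠ (b : ℕ) + 1 + 1 → mw r k L (Function.update v b (v b + 1)) j =
        mw r k L v j := by
      intro j hj
      rw [mw_update, Function.update_of_ne hj]
    have hlt : mw r k L v ((b : ℕ) + 1 + 1) <
        mw r k L (Function.update v b (v b + 1)) ((b : ℕ) + 1 + 1) := by
      rw [mw_mid, mw_mid, Function.update_self]
      push_cast
      nlinarith
    have h1 := SN_slope (n := n) (β := β) (N := N) (l := (b : ℕ) + 1) hK hw hs0 (by omega)
      (by omega) hw' heq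
    have h2 := SN_slope (n := n) (β := β) (N := N) (l := (b : ℕ) + 1) hK hw' hs0 (by omega)
      (by omega) hw (fun j hj => (heq j hj).symm)
    unfold Dn
    obtain ⟨δ, hδ⟩ : ∃ δ, δ = mw r k L (Function.update v b (v b + 1)) ((b : ℕ) + 1 + 1) -
      mw r k L v ((b : ℕ) + 1 + 1) := ⟨_, rfl⟩
    have hδ0 : 0 < δ := by rw [hδ]; linarith
    have e2 : mw r k L v ((b : ℕ) + 1 + 1) -
      mw r k L (Function.update v b (v b + 1)) ((b : ℕ) + 1 + 1) = -δ := by rw [hδ]; ring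
    rw [← hδ] at h1
    rw [e2] at h2
    have h3 : δ * DN n (k + 1) (mw r k L v) β N s ((b : ℕ) + 1) ≤
        δ * DN n (k + 1) (mw r k L (Function.update v b (v b + 1))) β N s ((b : ℕ) + 1) := by
      linarith
    exact div_le_div_of_nonneg_right (le_of_mul_le_mul_left h3 hδ0) (sq_nonneg _)
  face := fun v hv hL a b hab _ => by
    have hb1 := b.2
    have hw := mw_WE (r := r) hr hr1.le hv hL
    have h1 := DN_le (β := β) (s := s) (l := (a : ℕ) + 1) (by omega) hw hN hN0 (by omega)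
      (by omega)
    have h2 := DN_ge (β := β) (s := s) (l := (b : ℕ) + 1) (by omega) hw hN hN0 (by omega)
      (by omega)
    have s1 := hs ((a : ℕ) + 1 + 1) (by omega) (by omega)
    have s2 := hs ((b : ℕ) + 1 + 1) (by omega) (by omega)
    unfold Dn
    rw [show (a : ℕ) + 2 = (a : ℕ) + 1 + 1 by ring, show (b : ℕ) + 2 = (b : ℕ) + 1 + 1 by ring]
    have h3 : DN n (k + 1) (mw r k L v) β N s ((a : ℕ) + 1) / s ((a : ℕ) + 1 + 1) ^ 2 ≤
        N / 2 * (SN n (k + 1) 1 (mw r k L v) β N s).Rl (Ub.ph hN) ((a : ℕ) + 1 + 1) := by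
      rw [div_le_iff₀ (by positivity)]
      linarith
    have h4 : N / 2 * (SN n (k + 1) 1 (mw r k L v) β N s).Rl (Ub.ph hN) ((b : ℕ) + 1) ≤
        DN n (k + 1) (mw r k L v) β N s ((b : ℕ) + 1) / s ((b : ℕ) + 1 + 1) ^ 2 := by
      rw [le_div_iff₀ (by positivity)]
      linarith
    rw [show (a : ℕ) + 1 + 1 = (b : ℕ) + 1 by omega] at h3
    rw [show (a : ℕ) + 1 + 1 = (b : ℕ) + 1 by omega]
    exact h3.trans h4
  bd := fun v hv hL b => by
    have hb1 := b.2
    have hw := mw_WE (r := r) hr hr1.le hv hL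
    have s2 := hs ((b : ℕ) + 1 + 1) (by omega) (by omega)
    refine ⟨div_nonneg (DN_nonneg (β := β) (s := s) (l := (b : ℕ) + 1) (by omega) hw hN hN0
      (by omega) (by omega)) (sq_nonneg _), ?_⟩
    have h1 := DN_le_const (β := β) (s := s) (l := (b : ℕ) + 1) (by omega) hw hN hN0 (by omega)
      (by omega)
    unfold Dn
    rw [show (b : ℕ) + 2 = (b : ℕ) + 1 + 1 by ring, div_le_iff₀ (by positivity)]
    linarith

/-- **(S4')**, for a part of the good configurations. -/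
theorem avg_good2 {K J q : ℕ} {B : ℝ} {D : Fin K → (Fin K → ℕ) → ℝ}
    (hD : Slp K (J * q) B D) (hB : 0 ≤ B) {G : Finset (Fin K → Fin (J * q))}
    (hG : G ⊆ Gset K J q) (hc : 1 / 4 * ((J * q : ℕ) : ℝ) ^ K ≤ (G.card : ℝ)) :
    ((J * q : ℕ) : ℝ) * ∑ u ∈ G, ∑ l, dD D (srt (vl u)) l ≤ 4 * K * B * G.card := by
  have h4 := hD.sum_all
  have h5 : ∑ u ∈ G, ∑ l, dD D (srt (vl u)) l ≤
      ∑ u : Fin K → Fin (J * q), ∑ i, Ev D (vl u) i := by
    have h6 : ∑ u ∈ G, ∑ l, dD D (srt (vl u)) l = ∑ u ∈ G, ∑ i, Ev D (vl u) i := by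
      refine Finset.sum_congr rfl fun u hu => ?_
      have hu' := (Finset.mem_filter.1 (hG hu)).2.1
      exact (Ev_sum (D := D) hu').symm
    rw [h6]
    exact Finset.sum_le_sum_of_subset_of_nonneg (Finset.subset_univ _)
      fun u _ _ => Finset.sum_nonneg fun i _ =>
        (hD.Ev_le (fun j => (vl_le u j).trans (Nat.le_succ _)) (vl_le u i)).1
  have h7 := mul_le_mul_of_nonneg_left h5 (Nat.cast_nonneg (α := ℝ) (J * q))
  refine h7.trans (h4.trans ?_)
  have h8 : (K : ℝ) * ((J * q : ℕ) : ℝ) ^ K * B = 4 * K * B * (1 / 4 * ((J * q : ℕ) : ℝ) ^ K) := by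
    ring
  rw [h8]
  exact mul_le_mul_of_nonneg_left hc (by positivity)

/-- One configuration of the exponents. -/
theorem VT_le3 (hN : N ≤ n) (h0 : 0 < N) {m : ℕ → ℝ} (hm : Exponents (k + 1) m)
    (hs : ∀ l ≤ k + 1, 0 ≤ s l) {P c1 : ℝ} (hr : 0 < r) (hlam : 0 < lam) (hmr : r ≤ m 1)
    (hP : ∀ l ∈ Finset.Ico 1 (k + 1), m (l + 1) - m l ≤ P)
    (hs' : ∀ l ∈ Finset.Ico 1 (k + 1), 0 < s (l + 1) ∧ lam ≤ s (l + 1) ^ 2 * m (l + 1))
    (hP0 : 0 ≤ P) (hc1 : 0 ≤ c1)
    {dd : Fin k → ℝ} (hX : ∀ i : Fin k, vr (SN n (k + 1) 1 m β N s) (fun z _ =>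
        rho (SN n (k + 1) 1 m β N s) (Vale.Agent.P146.Ub.ph hN) (i + 1) z) ≤ c1 * dd i +
      2 * ((SN n (k + 1) 1 m β N s).Rl (Vale.Agent.P146.Ub.ph hN) (i + 2) -
        (SN n (k + 1) 1 m β N s).Rl (Vale.Agent.P146.Ub.ph hN) (i + 1))) :
    VT n k m β hN s ≤ P * (6 + 2 / (N * lam * r)) +
      2 * √(5 / 2 * P * Real.log (1 / r) / (N * lam)) + P * (c1 * ∑ i, dd i + 2) := by
  have h1 := rowT_sum3 (β := β) (d := 1) le_rfl (show 1 ≤ k + 1 by omega) hN h0 hm hs hr hlam hmr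
    hP hs' hP0
  refine h1.trans ?_
  refine add_le_add le_rfl ?_
  obtain ⟨v, hv⟩ : ∃ v : ℕ → ℝ, v = fun l => vr (SN n (k + 1) 1 m β N s) (fun z _ =>
      rho (SN n (k + 1) 1 m β N s) (Vale.Agent.P146.Ub.ph hN) l z) := ⟨_, rfl⟩
  have hv0 : ∀ l ≤ k + 1, 0 ≤ v l := by
    intro l hl
    have F := SN_fld (d := 1) (β := β) (show 1 ≤ k + 1 by omega) hN h0 hm hs
    rw [hv]
    exact vr_nonneg F.reg.toReg (Nh.fst (eg_rho F.reg.toReg hl))
  have h2 : ∑ l ∈ Finset.Ico 1 (k + 1), (m (l + 1) - m l) * v l ≤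
      ∑ l ∈ Finset.Ico 1 (k + 1), P * v l := by
    refine Finset.sum_le_sum fun l hl => ?_
    exact mul_le_mul_of_nonneg_right (hP l hl) (hv0 l (by have := Finset.mem_Ico.1 hl; omega))
  have e3 : ∑ l ∈ Finset.Ico 1 (k + 1), P * v l = P * ∑ i : Fin k, v (i + 1) := by
    rw [← Finset.mul_sum, Finset.sum_Ico_eq_sum_range, Nat.add_sub_cancel,
      ← Fin.sum_univ_eq_sum_range (fun i => v (1 + i)) k]
    congr 1
    exact Finset.sum_congr rfl fun i _ => by rw [add_comm]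
  have h4 : ∑ i : Fin k, v (i + 1) ≤ c1 * ∑ i, dd i + 2 := by
    have h5 : ∑ i : Fin k, v (i + 1) ≤ ∑ i : Fin k, (c1 * dd i +
      2 * ((SN n (k + 1) 1 m β N s).Rl (Vale.Agent.P146.Ub.ph hN) (i + 2) -
        (SN n (k + 1) 1 m β N s).Rl (Vale.Agent.P146.Ub.ph hN) (i + 1))) :=
      Finset.sum_le_sum fun i _ => by rw [hv]; exact hX i
    rw [Finset.sum_add_distrib, ← Finset.mul_sum] at h5
    have h6 := sum_dRl (β := β) hN h0 hm hs
    linarith
  rw [hv] at h2 e3 h4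
  rw [e3] at h2
  exact h2.trans (mul_le_mul_of_nonneg_left h4 hP0)

end Vale.Agent.P146.H394
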