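import Vale.Agent.P146.H785.Sum2

set_option linter.all false

/-!
The weighted sum over the levels for fields of variable strengths, `s_{l+1}² m_{l+1} ≥ lam`:
`∑ p_l V_l ≤ P (6 + 2 / (N lam r)) + 2 √(5 P log (1 / r) / (2 N lam)) + ∑ p_l Var rho_l`.
-/

open MeasureTheory ProbabilityTheory Filter Topology

namespace Vale.Agent.P146.H394

open Vale.Agent.P157.Lv Vale.Agent.P157.Lv.Sy Vale.Agent.P146.H784 Vale.Agent.P146.H785

variable {ι X : Type} [Fintype ι] [DecidableEq ι] [Fintype X] [DecidableEq X] [Nonempty X]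
  {S : Sy ι X} {D : ι → (ι → ℝ) → X → ℝ} {N : ℕ} {φ : X → Fin N → ℝ} {zc : ℕ → Fin N → ι}
  {s : ℕ → ℝ}

lemma sum_inv_le (m : ℕ → ℝ) {d K : ℕ} (hdK : d ≤ K) {r : ℝ} (hr : 0 < r) (hd : r ≤ m d)
    (hK : m K ≤ 1) (hm : ∀ l ∈ Finset.Ico d K, m l ≤ m (l + 1)) :
    ∑ l ∈ Finset.Ico d K, (m (l + 1) - m l) / m (l + 1) ≤ Real.log (1 / r) := by
  have key : ∀ k, d ≤ k → k ≤ K → 0 < m k ∧
      ∑ l ∈ Finset.Ico d k, (m (l + 1) - m l) / m (l + 1) ≤ Real.log (m k) - Real.log (m d) := by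
    intro k hk
    induction k, hk using Nat.le_induction with
    | base => intro _; exact ⟨hr.trans_le hd, by simp⟩
    | succ k hk ih =>
      intro hk2
      obtain ⟨h0, h1⟩ := ih (by omega)
      have h2 := hm k (Finset.mem_Ico.2 ⟨hk, by omega⟩)
      have h3 : 0 < m (k + 1) := h0.trans_le h2
      refine ⟨h3, ?_⟩
      rw [Finset.sum_Ico_succ_top hk]
      have h4 : (m (k + 1) - m k) / m (k + 1) ≤ Real.log (m (k + 1)) - Real.log (m k) := by
        have h5 := Real.log_le_sub_one_of_pos (div_pos h0 h3)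
        rw [Real.log_div h0.ne' h3.ne'] at h5
        have e : (m (k + 1) - m k) / m (k + 1) = 1 - m k / m (k + 1) := by
          field_simp
        rw [e]
        linarith
      linarith
  obtain ⟨h0, h1⟩ := key K hdK le_rfl
  have h2 : Real.log (m K) ≤ 0 := Real.log_nonpos h0.le hK
  have h3 : Real.log (1 / r) = -Real.log r := by rw [one_div, Real.log_inv]
  have h4 := Real.log_le_log hr hd
  rw [h3]
  linarith

section main

variable (F : Fld S D φ zc s)

include F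

/-- **THE THERMAL PART, SUMMED**, for variable strengths: no power of `r` in the main term. -/
theorem sum_thermal3 {d : ℕ} (hd : d ≤ S.K) {P r lam : ℝ} (hr : 0 < r) (hlam : 0 < lam)
    (hP : ∀ l ∈ Finset.Ico d S.K, S.p l ≤ P) (hm : r ≤ S.m d)
    (hinj : ∀ l ∈ Finset.Ico d S.K, Function.Injective (zc (l + 1)))
    (hs : ∀ l ∈ Finset.Ico d S.K, 0 < s (l + 1) ∧ lam ≤ s (l + 1) ^ 2 * S.m (l + 1))
    (hP0 : 0 ≤ P) :
    ∑ l ∈ Finset.Ico d S.K, S.p l * S.pairEx l (fun x x' => (Rov φ x x' - S.Rl φ l) ^ 2) ≤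
      P * (6 + 2 / (N * lam * r)) + 2 * √(5 / 2 * P * Real.log (1 / r) / (N * lam)) +
        ∑ l ∈ Finset.Ico d S.K, S.p l * vr S (fun z _ => rho S φ l z) := by
  have hS := F.hreg
  have hN := F.N_pos
  have hp0 : ∀ l ∈ Finset.Ico d S.K, 0 ≤ S.p l := fun l hl => by
    rw [Finset.mem_Ico] at hl
    have := hS.mono l (by omega)
    unfold Sy.p
    linarith
  have hlt : ∀ l ∈ Finset.Ico d S.K, l < S.K := fun l hl => by
    rw [Finset.mem_Ico] at hl; omega
  have hmr : ∀ l ∈ Finset.Ico d S.K, r ≤ S.m (l + 1) := fun l hl => by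
    rw [Finset.mem_Ico] at hl
    exact hm.trans (hS.m_mono (by omega) (by omega))
  have hmK : S.m S.K ≤ 1 := by
    have h1 := hS.mono S.K le_rfl
    rw [hS.mK] at h1
    exact h1
  -- termwise
  have h1 : ∀ l ∈ Finset.Ico d S.K,
      S.p l * S.pairEx l (fun x x' => (Rov φ x x' - S.Rl φ l) ^ 2) ≤
      P * (2 / (N * lam * r) + 1) * (S.Rl φ (l + 1) - S.Rl φ l) + 2 * P * dlb S φ l +
        2 * (S.p l / √(S.m (l + 1)) * √(dlb S φ l / (N * lam))) +
        S.p l * vr S (fun z _ => rho S φ l z) := by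
    intro l hl
    have hl' := hlt l hl
    obtain ⟨s0, s1⟩ := hs l hl
    have m1 := hmr l hl
    have hpl := hp0 l hl
    have hR := Rl_mono' F hl'
    have hD0 := dlb_nonneg F hl'
    have hm0 : 0 < S.m (l + 1) := hr.trans_le m1
    have k := rowT F hl' (hinj l hl) s0
    have hsm : 0 < s (l + 1) ^ 2 := by positivity
    have a1 : 2 / (N * s (l + 1) ^ 2 * S.m (l + 1) ^ 2) ≤ 2 / (N * lam * r) := by
      refine div_le_div_of_nonneg_left zero_le_two (by positivity) ?_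
      have e : N * s (l + 1) ^ 2 * S.m (l + 1) ^ 2 = N * ((s (l + 1) ^ 2 * S.m (l + 1)) *
        S.m (l + 1)) := by ring
      rw [e, mul_assoc]
      exact mul_le_mul_of_nonneg_left (mul_le_mul s1 m1 hr.le (by positivity)) hN.le
    have hq : 0 < √(S.m (l + 1)) := Real.sqrt_pos.2 hm0
    have hqq : √(S.m (l + 1)) * √(S.m (l + 1)) = S.m (l + 1) := Real.mul_self_sqrt hm0.le
    have a2 : √(dlb S φ l / (N * s (l + 1) ^ 2)) ≤
        √(S.m (l + 1)) * √(dlb S φ l / (N * lam)) := by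
      rw [← Real.sqrt_mul hm0.le]
      refine Real.sqrt_le_sqrt ?_
      rw [mul_div_assoc', div_le_div_iff₀ (by positivity) (by positivity)]
      have h9 := mul_le_mul_of_nonneg_left s1 (mul_nonneg hD0 hN.le)
      nlinarith [h9]
    have a4 : 2 / S.m (l + 1) * √(dlb S φ l / (N * s (l + 1) ^ 2)) ≤
        2 / √(S.m (l + 1)) * √(dlb S φ l / (N * lam)) := by
      have h9 := mul_le_mul_of_nonneg_left a2 (show 0 ≤ 2 / S.m (l + 1) by positivity)
      refine h9.trans (le_of_eq ?_)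
      have e : 2 / S.m (l + 1) * √(S.m (l + 1)) = 2 / √(S.m (l + 1)) := by
        rw [div_mul_eq_mul_div, div_eq_div_iff hm0.ne' hq.ne', mul_assoc, hqq]
      rw [← mul_assoc, e]
    have a5 : (1 + 2 / (N * s (l + 1) ^ 2 * S.m (l + 1) ^ 2)) * (S.Rl φ (l + 1) - S.Rl φ l) ≤
        (2 / (N * lam * r) + 1) * (S.Rl φ (l + 1) - S.Rl φ l) :=
      mul_le_mul_of_nonneg_right (by linarith) (by linarith)
    have k' : S.pairEx l (fun x x' => (Rov φ x x' - S.Rl φ l) ^ 2) ≤
        (2 / (N * lam * r) + 1) * (S.Rl φ (l + 1) - S.Rl φ l) +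
        2 * dlb S φ l + 2 / √(S.m (l + 1)) * √(dlb S φ l / (N * lam)) +
          vr S (fun z _ => rho S φ l z) := by
      linarith
    have k2 := mul_le_mul_of_nonneg_left k' hpl
    have a6 : S.p l * ((2 / (N * lam * r) + 1) * (S.Rl φ (l + 1) - S.Rl φ l)) ≤
        P * ((2 / (N * lam * r) + 1) * (S.Rl φ (l + 1) - S.Rl φ l)) :=
      mul_le_mul_of_nonneg_right (hP l hl) (mul_nonneg (by positivity) (by linarith))
    have a7 : S.p l * (2 * dlb S φ l) ≤ P * (2 * dlb S φ l) :=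
      mul_le_mul_of_nonneg_right (hP l hl) (by linarith)
    have e : S.p l * ((2 / (N * lam * r) + 1) * (S.Rl φ (l + 1) - S.Rl φ l) +
        2 * dlb S φ l + 2 / √(S.m (l + 1)) * √(dlb S φ l / (N * lam)) +
          vr S (fun z _ => rho S φ l z)) =
        S.p l * ((2 / (N * lam * r) + 1) * (S.Rl φ (l + 1) - S.Rl φ l)) +
        S.p l * (2 * dlb S φ l) + 2 * (S.p l / √(S.m (l + 1)) * √(dlb S φ l / (N * lam))) +
        S.p l * vr S (fun z _ => rho S φ l z) := by ring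
    rw [e] at k2
    linarith
  -- sums
  have h2 := Finset.sum_le_sum h1
  rw [Finset.sum_add_distrib, Finset.sum_add_distrib, Finset.sum_add_distrib, ← Finset.mul_sum,
    ← Finset.mul_sum, ← Finset.mul_sum] at h2
  have b1 := sum_dR_le F hd
  have b2 := sum_dlb_le F hd
  have bq : ∑ l ∈ Finset.Ico d S.K, S.p l / S.m (l + 1) ≤ Real.log (1 / r) := by
    refine sum_inv_le S.m hd hr hm hmK fun l hl => ?_
    rw [Finset.mem_Ico] at hl
    exact hS.mono l (by omega)
  have hlog : 0 ≤ Real.log (1 / r) := by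
    refine le_trans (Finset.sum_nonneg fun l hl => ?_) bq
    exact div_nonneg (hp0 l hl) (hr.trans_le (hmr l hl)).le
  have b3 : ∑ l ∈ Finset.Ico d S.K, S.p l / √(S.m (l + 1)) * √(dlb S φ l / (N * lam)) ≤
      √(5 / 2 * P * Real.log (1 / r) / (N * lam)) := by
    refine Real.le_sqrt_of_sq_le ?_
    have h3 := Finset.sum_mul_sq_le_sq_mul_sq (Finset.Ico d S.K)
      (fun l => √(S.p l) / √(S.m (l + 1)))
      (fun l => √(S.p l) * √(dlb S φ l / (N * lam)))
    have e1 : ∑ l ∈ Finset.Ico d S.K, √(S.p l) / √(S.m (l + 1)) *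
        (√(S.p l) * √(dlb S φ l / (N * lam))) =
        ∑ l ∈ Finset.Ico d S.K, S.p l / √(S.m (l + 1)) * √(dlb S φ l / (N * lam)) := by
      refine Finset.sum_congr rfl fun l hl => ?_
      have e0 := Real.mul_self_sqrt (hp0 l hl)
      calc √(S.p l) / √(S.m (l + 1)) * (√(S.p l) * √(dlb S φ l / (N * lam))) =
          (√(S.p l) * √(S.p l)) / √(S.m (l + 1)) * √(dlb S φ l / (N * lam)) := by ring
        _ = _ := by rw [e0]
    have e2 : ∑ l ∈ Finset.Ico d S.K, (√(S.p l) / √(S.m (l + 1))) ^ 2 =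
        ∑ l ∈ Finset.Ico d S.K, S.p l / S.m (l + 1) :=
      Finset.sum_congr rfl fun l hl => by
        rw [div_pow, Real.sq_sqrt (hp0 l hl), Real.sq_sqrt (hr.trans_le (hmr l hl)).le]
    have e3 : ∑ l ∈ Finset.Ico d S.K, (√(S.p l) * √(dlb S φ l / (N * lam))) ^ 2 =
        ∑ l ∈ Finset.Ico d S.K, S.p l * (dlb S φ l / (N * lam)) := by
      refine Finset.sum_congr rfl fun l hl => ?_
      have := dlb_nonneg F (hlt l hl)
      rw [mul_pow, Real.sq_sqrt (hp0 l hl), Real.sq_sqrt (by positivity)]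
    rw [e1, e2, e3] at h3
    refine h3.trans ?_
    have c1 : ∑ l ∈ Finset.Ico d S.K, S.p l * (dlb S φ l / (N * lam)) ≤
        P / (N * lam) * (5 / 2) := by
      calc ∑ l ∈ Finset.Ico d S.K, S.p l * (dlb S φ l / (N * lam))
          ≤ ∑ l ∈ Finset.Ico d S.K, P * (dlb S φ l / (N * lam)) :=
            Finset.sum_le_sum fun l hl => mul_le_mul_of_nonneg_right (hP l hl)
              (div_nonneg (dlb_nonneg F (hlt l hl)) (by positivity))
        _ = P / (N * lam) * ∑ l ∈ Finset.Ico d S.K, dlb S φ l := by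
            rw [Finset.mul_sum]
            refine Finset.sum_congr rfl fun l _ => ?_
            ring
        _ ≤ P / (N * lam) * (5 / 2) := mul_le_mul_of_nonneg_left b2 (by positivity)
    have c2 : 0 ≤ ∑ l ∈ Finset.Ico d S.K, S.p l * (dlb S φ l / (N * lam)) :=
      Finset.sum_nonneg fun l hl => mul_nonneg (hp0 l hl)
        (div_nonneg (dlb_nonneg F (hlt l hl)) (by positivity))
    calc (∑ l ∈ Finset.Ico d S.K, S.p l / S.m (l + 1)) *
          ∑ l ∈ Finset.Ico d S.K, S.p l * (dlb S φ l / (N * lam))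
        ≤ Real.log (1 / r) * (P / (N * lam) * (5 / 2)) :=
          mul_le_mul bq c1 c2 hlog
      _ = 5 / 2 * P * Real.log (1 / r) / (N * lam) := by field_simp
  have c3 : P * (2 / (N * lam * r) + 1) *
      ∑ l ∈ Finset.Ico d S.K, (S.Rl φ (l + 1) - S.Rl φ l) ≤
      P * (2 / (N * lam * r) + 1) * 1 := mul_le_mul_of_nonneg_left b1 (by positivity)
  have c4 : 2 * P * ∑ l ∈ Finset.Ico d S.K, dlb S φ l ≤ 2 * P * (5 / 2) :=
    mul_le_mul_of_nonneg_left b2 (by positivity)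
  have e : P * (6 + 2 / (N * lam * r)) =
      P * (2 / (N * lam * r) + 1) * 1 + 2 * P * (5 / 2) := by ring
  rw [e]
  linarith

end main

section SN

open Vale.Agent.P146.Ub Vale.Agent.P146.Ub.Ld
open Vale.Agent.P157.Par (Path Exponents incr)

variable {n K : ℕ} {m : ℕ → ℝ} {β : ℝ}

/-- **ROW (T), SUMMED**, for the SK systems with tree fields of variable strengths. -/
theorem rowT_sum3 {d : ℕ} (hd1 : 1 ≤ d) (hd : d ≤ K) (hN : N ≤ n) (h0 : 0 < N)
    (hm : Exponents K m) {s : ℕ → ℝ} (hs : ∀ l ≤ K, 0 ≤ s l) {P r lam : ℝ} (hr : 0 < r)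
    (hlam : 0 < lam) (hmr : r ≤ m d) (hP : ∀ l ∈ Finset.Ico d K, m (l + 1) - m l ≤ P)
    (hs' : ∀ l ∈ Finset.Ico d K, 0 < s (l + 1) ∧ lam ≤ s (l + 1) ^ 2 * m (l + 1))
    (hP0 : 0 ≤ P) :
    ∑ l ∈ Finset.Ico d K, (m (l + 1) - m l) *
      (SN n K d m β N s).pairEx l (fun x x' => (Rov (Vale.Agent.P146.Ub.ph hN) x x' -
        (SN n K d m β N s).Rl (Vale.Agent.P146.Ub.ph hN) l) ^ 2) ≤
      P * (6 + 2 / (N * lam * r)) + 2 * √(5 / 2 * P * Real.log (1 / r) / (N * lam)) +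
        ∑ l ∈ Finset.Ico d K, (m (l + 1) - m l) * vr (SN n K d m β N s) (fun z _ =>
          rho (SN n K d m β N s) (Vale.Agent.P146.Ub.ph hN) l z) :=
  sum_thermal3 (SN_fld hd hN h0 hm hs) (d := d) hd hr hlam hP hmr
    (fun l _ => zc_inj hN (l + 1)) hs' hP0

end SN

end Vale.Agent.P146.H394
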