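import Vale.Agent.P146.H394.SlpN
import Vale.Agent.P146.Bd5.B2

set_option linter.all false

/-!
The sum over the stages for fields whose strengths depend on the level:
`s_l² = lam / (r + (l - 2) / (32 k))`. No power of `r` in the main terms.
-/

open MeasureTheory ProbabilityTheory Finset

namespace Vale.Agent.P146.H394

open Vale.Agent.P157.Lv Vale.Agent.P157.Lv.Sy
open Vale.Agent.P146.Ub.Ld Vale.Agent.P146.H784 Vale.Agent.P146.H785 Vale.Agent.P146.H425
open Vale.Agent.P157.Par (Path Exponents incr)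
open Vale.Agent.P146.Gp.Avg

variable {n k N L : ℕ} {β r lam : ℝ} {s : ℕ → ℝ}

/-- The strengths of the fields. -/
noncomputable def sv (lam r : ℝ) (k : ℕ) : ℕ → ℝ := fun l =>
  if l = 0 then 0 else √(lam / (r + ((l - 2 : ℕ) : ℝ) / (32 * k)))

theorem sv_zero : sv lam r k 0 = 0 := if_pos rfl

lemma sv_den (hr : 0 < r) (l : ℕ) : 0 < r + ((l - 2 : ℕ) : ℝ) / (32 * k) := by
  have : 0 ≤ ((l - 2 : ℕ) : ℝ) / (32 * k) := by positivity
  linarith

theorem sv_sq (hlam : 0 ≤ lam) (hr : 0 < r) {l : ℕ} (hl : 1 ≤ l) :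
    sv lam r k l ^ 2 = lam / (r + ((l - 2 : ℕ) : ℝ) / (32 * k)) := by
  unfold sv
  rw [if_neg (by omega), Real.sq_sqrt (div_nonneg hlam (sv_den hr l).le)]

theorem sv_nonneg (l : ℕ) : 0 ≤ sv lam r k l := by
  unfold sv
  split_ifs
  · exact le_rfl
  · exact Real.sqrt_nonneg _

theorem sv_pos (hlam : 0 < lam) (hr : 0 < r) {l : ℕ} (hl : 1 ≤ l) : 0 < sv lam r k l := by
  unfold sv
  rw [if_neg (by omega)]
  exact Real.sqrt_pos.2 (div_pos hlam (sv_den hr l))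

/-- The cost of the fields. -/
theorem sum_sv_sq (hk : 1 ≤ k) (hlam : 0 ≤ lam) (hr : 0 < r) :
    ∑ j ∈ Finset.range (k + 1 + 1), sv lam r k j ^ 2 ≤
      lam * (2 / r + 32 * k * (1 + Real.log k)) := by
  have hk0 : (0 : ℝ) < k := by exact_mod_cast hk
  obtain ⟨k', rfl⟩ : ∃ k', k = k' + 1 := ⟨k - 1, by omega⟩
  rw [Finset.sum_range_succ', sv_zero, Finset.sum_range_succ', Finset.sum_range_succ']
  have e0 : sv lam r (k' + 1) (0 + 1) ^ 2 = lam / r := by
    rw [sv_sq hlam hr (by omega)]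
    simp
  have e1 : sv lam r (k' + 1) (0 + 1 + 1) ^ 2 = lam / r := by
    rw [sv_sq hlam hr (by omega)]
    simp
  rw [e0, e1]
  have h1 : ∑ i ∈ Finset.range k', sv lam r (k' + 1) (i + 1 + 1 + 1) ^ 2 ≤
      ∑ i ∈ Finset.range k', lam * (32 * ((k' + 1 : ℕ) : ℝ)) * (1 / ((1 + i : ℕ) : ℝ)) := by
    refine Finset.sum_le_sum fun i _ => ?_
    rw [sv_sq hlam hr (by omega)]
    have e : i + 1 + 1 + 1 - 2 = i + 1 := by omega
    rw [e]
    have hi : (0 : ℝ) < ((i + 1 : ℕ) : ℝ) := by exact_mod_cast Nat.succ_pos i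
    have e2 : ((1 + i : ℕ) : ℝ) = ((i + 1 : ℕ) : ℝ) := by push_cast; ring
    rw [e2]
    have h2 : ((i + 1 : ℕ) : ℝ) / (32 * ((k' + 1 : ℕ) : ℝ)) ≤
        r + ((i + 1 : ℕ) : ℝ) / (32 * ((k' + 1 : ℕ) : ℝ)) := by linarith
    refine (div_le_div_of_nonneg_left hlam (by positivity) h2).trans (le_of_eq ?_)
    field_simp
  have h2 := sum_one_div_le (k' + 1)
  rw [Finset.sum_Ico_eq_sum_range, Nat.add_sub_cancel] at h2
  rw [← Finset.mul_sum] at h1
  have h3 := mul_le_mul_of_nonneg_left h2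
    (show 0 ≤ lam * (32 * ((k' + 1 : ℕ) : ℝ)) by positivity)
  have e5 : lam * (2 / r + 32 * ((k' + 1 : ℕ) : ℝ) * (1 + Real.log ((k' + 1 : ℕ) : ℝ))) =
      lam / r + lam / r + lam * (32 * ((k' + 1 : ℕ) : ℝ)) *
        (1 + Real.log ((k' + 1 : ℕ) : ℝ)) := by ring
  rw [e5]
  linarith

/-- The gain with the exponent of the level: the variance of the overlap of a level by the
increment of the slope. -/
def RhoD : Prop :=
  ∀ (n K N l : ℕ) (m m' s : ℕ → ℝ) (β : ℝ), 1 ≤ K → WE K m → s 0 = 0 → ∀ hN : N ≤ n, 0 < N →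
    1 ≤ l → l < K → WE K m' → (∀ j, j ≠ l + 1 → m' j = m j) → m (l + 1) < m' (l + 1) →
    s (l + 1) ≠ 0 → (m' (l + 1) - m (l + 1)) * (N * s (l + 1) ^ 2) ≤ 1 →
    vr (SN n K 1 m β N s) (fun z _ => H784.rho (SN n K 1 m β N s) (Ub.ph hN) l z) ≤
      400 / (m (l + 1) * (m' (l + 1) - m (l + 1)) * (N * s (l + 1) ^ 2) ^ 2) *
        (DN n K m' β N s l - DN n K m β N s l) +
      2 * ((SN n K 1 m β N s).Rl (Ub.ph hN) (l + 1) - (SN n K 1 m β N s).Rl (Ub.ph hN) l)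

/-- **The variance of the overlap of a level by the increment of the normalised slope.** -/
theorem Dn_rho (hRho : RhoD) (hr : 0 < r) (hr1 : r < 1) (hs0 : s 0 = 0) (hlam : 0 < lam)
    (hs : ∀ l, 1 ≤ l → l ≤ k + 1 → 0 < s l) (hN : N ≤ n) (hN0 : 0 < N)
    {v : Fin k → ℕ} (hv : Monotone v) (hL : ∀ i, v i ≤ L + 1) {b : Fin k} (hb : v b ≤ L)
    (hup : Monotone (Function.update v b (v b + 1)))
    (hms : lam ≤ s ((b : ℕ) + 1 + 1) ^ 2 * mw r k L v ((b : ℕ) + 1 + 1))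
    (hsm : ((1 - r) / ((L : ℝ) + 1)) * (N * s ((b : ℕ) + 1 + 1) ^ 2) ≤ 1) :
    vr (SN n (k + 1) 1 (mw r k L v) β N s)
      (fun z _ => H784.rho (SN n (k + 1) 1 (mw r k L v) β N s) (Ub.ph hN) ((b : ℕ) + 1) z) ≤
    400 / (lam * ((1 - r) / ((L : ℝ) + 1)) * N ^ 2) * dD (Dn n r k L β N s) v b +
      2 * ((SN n (k + 1) 1 (mw r k L v) β N s).Rl (Ub.ph hN) ((b : ℕ) + 1 + 1) -
        (SN n (k + 1) 1 (mw r k L v) β N s).Rl (Ub.ph hN) ((b : ℕ) + 1)) := by
  have hK : 1 ≤ k + 1 := by omega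
  have hb1 := b.2
  have hL' : ∀ i, Function.update v b (v b + 1) i ≤ L + 1 := by
    intro i
    by_cases hi : i = b
    · subst hi
      rw [Function.update_self]
      omega
    · rw [Function.update_of_ne hi]
      exact hL i
  have hw := mw_WE (r := r) hr hr1.le hv hL
  have hw' := mw_WE (r := r) hr hr1.le hup hL'
  have hh : 0 < (1 - r) / ((L : ℝ) + 1) := div_pos (by linarith) (by positivity)
  have heq : ∀ j, j ≠ (b : ℕ) + 1 + 1 → mw r k L (Function.update v b (v b + 1)) j =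
      mw r k L v j := by
    intro j hj
    rw [mw_update, Function.update_of_ne hj]
  have hδ : mw r k L (Function.update v b (v b + 1)) ((b : ℕ) + 1 + 1) -
      mw r k L v ((b : ℕ) + 1 + 1) = (1 - r) / ((L : ℝ) + 1) := by
    rw [mw_mid, mw_mid, Function.update_self]
    push_cast
    ring
  have hsp := hs ((b : ℕ) + 1 + 1) (by omega) (by omega)
  have h1 := hRho n (k + 1) N ((b : ℕ) + 1) (mw r k L v)
    (mw r k L (Function.update v b (v b + 1))) s β hK hw hs0 hN hN0 (by omega)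
    (by omega) hw' heq (by linarith) hsp.ne' (by rw [hδ]; exact hsm)
  rw [hδ] at h1
  refine h1.trans (add_le_add ?_ le_rfl)
  obtain ⟨h, hhd⟩ : ∃ h, h = (1 - r) / ((L : ℝ) + 1) := ⟨_, rfl⟩
  rw [← hhd] at hh ⊢
  obtain ⟨M, hM⟩ : ∃ M, M = mw r k L v ((b : ℕ) + 1 + 1) := ⟨_, rfl⟩
  rw [← hM] at hms ⊢
  have hN0' : (0 : ℝ) < N := by exact_mod_cast hN0
  have hmono := (Dn_slp (n := n) (k := k) (N := N) (L := L) (β := β) hr hr1 hs0 hs hN hN0).mono
    v hv hL b hb hup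
  have hd0 : 0 ≤ dD (Dn n r k L β N s) v b := by
    unfold dD
    linarith
  have hs2 : 0 < s ((b : ℕ) + 1 + 1) ^ 2 := by positivity
  have hdd : DN n (k + 1) (mw r k L (Function.update v b (v b + 1))) β N s ((b : ℕ) + 1) -
      DN n (k + 1) (mw r k L v) β N s ((b : ℕ) + 1) =
      s ((b : ℕ) + 1 + 1) ^ 2 * dD (Dn n r k L β N s) v b := by
    unfold dD Dn
    rw [show (b : ℕ) + 2 = (b : ℕ) + 1 + 1 by ring]
    field_simp
  rw [hdd]
  have e1 : 400 / (M * h * (N * s ((b : ℕ) + 1 + 1) ^ 2) ^ 2) *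
      (s ((b : ℕ) + 1 + 1) ^ 2 * dD (Dn n r k L β N s) v b) =
      400 / ((s ((b : ℕ) + 1 + 1) ^ 2 * M) * h * N ^ 2) * dD (Dn n r k L β N s) v b := by
    have hM0 : 0 < s ((b : ℕ) + 1 + 1) ^ 2 * M := hlam.trans_le hms
    have hM1 : 0 < M := by
      by_contra hcon
      have := mul_nonpos_of_nonneg_of_nonpos hs2.le (not_lt.1 hcon)
      linarith
    field_simp
  rw [e1]
  refine mul_le_mul_of_nonneg_right ?_ hd0
  refine div_le_div_of_nonneg_left (by norm_num) (by positivity) ?_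
  gcongr

/-- The average over a part of the good exponents at the stage `N`. -/
theorem sum_VK_le3 (hRho : RhoD) {J q : ℕ} (hN : N ≤ n) (h0 : 0 < N)
    (hs0 : s 0 = 0) (hsn : ∀ l, 0 ≤ s l) (hs : ∀ l, 1 ≤ l → l ≤ k + 1 → 0 < s l)
    (hr : 0 < r) (hr1 : r < 1) (hlam : 0 < lam) (hJ : 0 < J) (hq : 0 < q)
    {G : Finset (Fin k → Fin (J * q))} (hG : G ⊆ Gset k J q)
    (hc : 1 / 4 * ((J * q : ℕ) : ℝ) ^ k ≤ (G.card : ℝ))
    (hms : ∀ u ∈ G, ∀ i : Fin k, lam ≤ s ((i : ℕ) + 1 + 1) ^ 2 *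
      mw r k (J * q) (srt (vl u)) ((i : ℕ) + 1 + 1))
    (hsm : ∀ i : Fin k, ((1 - r) / (((J * q : ℕ) : ℝ) + 1)) * (N * s ((i : ℕ) + 1 + 1) ^ 2) ≤ 1) :
    ∑ u ∈ G, VK n k (mw r k (J * q) (srt (vl u))) β hN s ≤
      G.card * (2 / J * (12 + 2 / (N * lam * r)) +
        2 * √(5 * Real.log (1 / r) / (J * (N * lam))) +
        3200 * k / (J * ((1 - r) * (lam * N)))) := by
  have hJ0 : (0 : ℝ) < J := by exact_mod_cast hJ
  have hJ1 : (1 : ℝ) ≤ J := by exact_mod_cast hJ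
  have hq0 : (0 : ℝ) < q := by exact_mod_cast hq
  have hq1 : (1 : ℝ) ≤ q := by exact_mod_cast hq
  have hN0 : (0 : ℝ) < N := by exact_mod_cast h0
  have hr1' : 0 < 1 - r := by linarith
  have hJq : (0 : ℝ) < ((J * q : ℕ) : ℝ) := by push_cast; positivity
  obtain ⟨h, hh⟩ : ∃ h, h = (1 - r) / (((J * q : ℕ) : ℝ) + 1) := ⟨_, rfl⟩
  have hh0 : 0 < h := by rw [hh]; positivity
  obtain ⟨c1, hc1⟩ : ∃ c1, c1 = 400 / (lam * h * (N : ℝ) ^ 2) := ⟨_, rfl⟩
  have hc10 : 0 ≤ c1 := by rw [hc1]; positivity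
  have hone : ∀ u ∈ G, VK n k (mw r k (J * q) (srt (vl u))) β hN s ≤
      (2 / J * (6 + 2 / (N * lam * r)) + 2 * √(5 / 2 * (2 / J) * Real.log (1 / r) / (N * lam)) +
        2 / J * 2 + 8 / J) +
        2 / J * c1 * ∑ l, dD (Dn n r k (J * q) β N s) (srt (vl u)) l := by
    intro u hu
    obtain ⟨hsm', hb, -, -, -, hk⟩ := gap_good hJ hq (hG hu)
    have hm := mw_exp hr hr1 hsm' hb
    have hcell : ∀ l ∈ Finset.Ico 1 (k + 1), 0 < s (l + 1) ∧
        lam ≤ s (l + 1) ^ 2 * mw r k (J * q) (srt (vl u)) (l + 1) := by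
      intro l hl
      obtain ⟨hl1, hl2⟩ := Finset.mem_Ico.1 hl
      refine ⟨hs (l + 1) (by omega) (by omega), ?_⟩
      have h3 := hms u hu ⟨l - 1, by omega⟩
      simp only at h3
      rw [show l - 1 + 1 + 1 = l + 1 by omega] at h3
      exact h3
    have h3 := VT_le3 (β := β) (P := 2 / J) (c1 := c1) hN h0 hm (fun l _ => hsn l) hr hlam
      (le_of_eq mw_one.symm)
      (fun l hl => mw_gap hr.le hr1.le hJ hq (hG hu) (Finset.mem_Ico.1 hl).1)
      hcell (by positivity) hc10 (dd := fun i => dD (Dn n r k (J * q) β N s) (srt (vl u)) i)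
      (fun i => by
        have h4 := Dn_rho (L := J * q) (β := β) hRho hr hr1 hs0 hlam hs hN h0 hsm'.monotone
          (fun i => (hb i).2.trans (Nat.le_succ _)) (hb i).2
          (mono_up hsm'.monotone fun j hj => hsm' hj) (hms u hu i) (hsm i)
        rw [← hh, ← hc1] at h4
        exact h4)
    have h5 := VK_le (β := β) (s := s) hN h0 hm (fun l _ => hsn l)
    have h6 := mw_gap (r := r) hr.le hr1.le hJ hq (hG hu) (l := k + 1) (by omega)
    have e : 8 / (J : ℝ) = 4 * (2 / J) := by ring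
    rw [e]
    have h7 := mul_le_mul_of_nonneg_left h6 (show (0 : ℝ) ≤ 4 by norm_num)
    have e2 : 2 / (J : ℝ) * (c1 * ∑ i, dD (Dn n r k (J * q) β N s) (srt (vl u)) i + 2) =
        2 / J * 2 + 2 / J * c1 * ∑ l, dD (Dn n r k (J * q) β N s) (srt (vl u)) l := by ring
    rw [e2] at h3
    linarith
  refine (Finset.sum_le_sum hone).trans ?_
  rw [Finset.sum_add_distrib, Finset.sum_const, nsmul_eq_mul, ← Finset.mul_sum]
  have hD := Dn_slp (n := n) (k := k) (N := N) (L := J * q) (β := β) hr hr1 hs0 hs hN h0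
  have h4 := avg_good2 hD (by positivity) hG hc
  have h5 : ∑ u ∈ G, ∑ l, dD (Dn n r k (J * q) β N s) (srt (vl u)) l ≤
      G.card * (2 * k * N / (((J * q : ℕ) : ℝ))) := by
    have h6 : G.card * (2 * k * N / (((J * q : ℕ) : ℝ))) =
        (4 * k * (N / 2) * G.card) / ((J * q : ℕ) : ℝ) := by
      ring
    rw [h6, le_div_iff₀ hJq]
    linarith
  have h7 : 0 ≤ 2 / J * c1 := by positivity
  have h8 := mul_le_mul_of_nonneg_left h5 h7
  have h9 : 2 / (J : ℝ) * c1 * (G.card * (2 * k * N / (((J * q : ℕ) : ℝ)))) ≤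
      G.card * (3200 * k / (J * ((1 - r) * (lam * N)))) := by
    have e1 : 2 / (J : ℝ) * c1 * (G.card * (2 * k * N / (((J * q : ℕ) : ℝ)))) =
        G.card * (1600 * k / (J * ((1 - r) * (lam * N))) *
          ((((J * q : ℕ) : ℝ) + 1) / ((J * q : ℕ) : ℝ))) := by
      rw [hc1, hh]
      field_simp
      ring
    rw [e1]
    refine mul_le_mul_of_nonneg_left ?_ (Nat.cast_nonneg _)
    have h10 : (((J * q : ℕ) : ℝ) + 1) / ((J * q : ℕ) : ℝ) ≤ 2 := by
      rw [div_le_iff₀ hJq]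
      have : (1 : ℝ) ≤ ((J * q : ℕ) : ℝ) := by push_cast; nlinarith
      linarith
    have h11 : 0 ≤ 1600 * (k : ℝ) / (J * ((1 - r) * (lam * N))) := by positivity
    have h12 := mul_le_mul_of_nonneg_left h10 h11
    refine h12.trans (le_of_eq ?_)
    ring
  have e10 : 5 / 2 * (2 / (J : ℝ)) * Real.log (1 / r) / (N * lam) =
      5 * Real.log (1 / r) / (J * (N * lam)) := by
    field_simp
  rw [e10]
  have e11 : (G.card : ℝ) * (2 / J * (12 + 2 / (N * lam * r)) +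
        2 * √(5 * Real.log (1 / r) / (J * (N * lam))) +
        3200 * k / (J * ((1 - r) * (lam * N)))) =
      G.card * (2 / J * (6 + 2 / (N * lam * r)) +
        2 * √(5 * Real.log (1 / r) / (J * (N * lam))) + 2 / J * 2 + 8 / J) +
      G.card * (3200 * k / (J * ((1 - r) * (lam * N)))) := by
    field_simp
    ring
  rw [e11]
  linarith

/-- `VK` as a function of the stage. -/
noncomputable def VKs (n k : ℕ) (m : ℕ → ℝ) (β : ℝ) (s : ℕ → ℝ) (N : ℕ) : ℝ :=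
  if hN : N ≤ n then VK n k m β hN s else 0

/-- The good configurations. -/
def Good2 : Prop :=
  ∀ (k J q : ℕ), 0 < J → 0 < q → 4 * k ^ 2 ≤ J * q → 4 * (J : ℝ) * Real.exp (-((k : ℝ) / J)) ≤ 1 →
    ∃ G : Finset (Fin k → Fin (J * q)), G ⊆ Gset k J q ∧
      1 / 4 * ((J * q : ℕ) : ℝ) ^ k ≤ (G.card : ℝ) ∧
      ∀ u ∈ G, ∀ i : Fin k, 1 ≤ (i : ℕ) →
        (((i : ℕ) : ℝ) + 1) * ((J * q : ℕ) : ℝ) ≤ 8 * k * (srt (vl u) i : ℝ)

/-- **The sum over the stages.** -/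
theorem sumN3' (hRho : RhoD) (hGood : Good2) {J : ℕ} {G C0 C : ℝ} (hC : 0 ≤ C)
    (hr : 0 < r) (hr1 : r ≤ 1 / 2) (hlam : 0 < lam) (hJ : 0 < J)
    (h2 : 4 * (J : ℝ) * Real.exp (-((k : ℝ) / J)) ≤ 1)
    (chain : ∀ m : ℕ → ℝ, Exponents (k + 1) m → m 1 = r →
      G ≤ C0 + ∑ N ∈ Finset.Ico 1 n, C * VKs n k m β (sv lam r k) N) :
    G ≤ C0 + ∑ N ∈ Finset.Ico 1 n, C * (24 / J + 4 / (J * (N * lam * r)) +
        2 * √(5 * Real.log (1 / r) / (J * (N * lam))) + 6400 * k / (J * (lam * N))) := by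
  obtain ⟨q, hqdef⟩ : ∃ q : ℕ, q = 4 * k ^ 2 + ⌈n * (lam / r)⌉₊ + 1 := ⟨_, rfl⟩
  have hq : 0 < q := by omega
  have hJ0 : (0 : ℝ) < J := by exact_mod_cast hJ
  have hJ1 : (1 : ℝ) ≤ J := by exact_mod_cast hJ
  have hr1' : r < 1 := by linarith
  have hrr : 0 < 1 - r := by linarith
  have h1 : 4 * k ^ 2 ≤ J * q := by
    have a1 : 4 * k ^ 2 ≤ q := by omega
    exact a1.trans (Nat.le_mul_of_pos_left q hJ)
  have hqn : n * (lam / r) ≤ q := by
    have a1 := Nat.le_ceil ((n : ℝ) * (lam / r))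
    have a2 : ((⌈(n : ℝ) * (lam / r)⌉₊ : ℕ) : ℝ) ≤ q := by
      have : ⌈(n : ℝ) * (lam / r)⌉₊ ≤ q := by omega
      exact_mod_cast this
    exact a1.trans a2
  have hq0 : (0 : ℝ) < q := by exact_mod_cast hq
  have hJq0 : 0 < J * q := Nat.mul_pos hJ hq
  have hJq : (0 : ℝ) < ((J * q : ℕ) : ℝ) := by exact_mod_cast hJq0
  obtain ⟨Gs, hGs, hGc, hGi⟩ := hGood k J q hJ hq h1 h2
  have hcard : (0 : ℝ) < Gs.card := by
    have a3 : (0 : ℝ) < 1 / 4 * ((J * q : ℕ) : ℝ) ^ k := by positivity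
    linarith
  have hsum : ∑ u ∈ Gs, G ≤ ∑ u ∈ Gs, (C0 + ∑ N ∈ Finset.Ico 1 n,
      C * VKs n k (mw r k (J * q) (srt (vl u))) β (sv lam r k) N) := by
    refine Finset.sum_le_sum fun u hu => ?_
    obtain ⟨hsm, hb, -, -, -, hk⟩ := gap_good hJ hq (hGs hu)
    exact chain _ (mw_exp hr hr1' hsm hb) mw_one
  rw [Finset.sum_const, nsmul_eq_mul, Finset.sum_add_distrib, Finset.sum_const, nsmul_eq_mul,
    Finset.sum_comm] at hsum
  -- the exponents of the good configurations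
  have hms : ∀ u ∈ Gs, ∀ i : Fin k, lam ≤ sv lam r k ((i : ℕ) + 1 + 1) ^ 2 *
      mw r k (J * q) (srt (vl u)) ((i : ℕ) + 1 + 1) := by
    intro u hu i
    have hk0 : (0 : ℝ) < k := by exact_mod_cast (Nat.lt_of_le_of_lt (Nat.zero_le _) i.2)
    rw [sv_sq hlam.le hr (by omega), show (i : ℕ) + 1 + 1 - 2 = (i : ℕ) by omega]
    have hden : 0 < r + ((i : ℕ) : ℝ) / (32 * k) := by positivity
    rw [div_mul_eq_mul_div, le_div_iff₀ hden]
    refine mul_le_mul_of_nonneg_left ?_ hlam.le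
    have e : mw r k (J * q) (srt (vl u)) ((i : ℕ) + 1 + 1) =
        r + (1 - r) / (((J * q : ℕ) : ℝ) + 1) * (srt (vl u) i : ℝ) := mw_mid i
    rw [e]
    refine add_le_add le_rfl ?_
    rcases Nat.eq_zero_or_pos (i : ℕ) with h | h
    · rw [h]
      simp only [Nat.cast_zero, zero_div]
      positivity
    · have h3 := hGi u hu i h
      obtain ⟨w, hw⟩ : ∃ w : ℝ, w = (srt (vl u) i : ℝ) := ⟨_, rfl⟩
      rw [← hw] at h3 ⊢
      obtain ⟨L, hL⟩ : ∃ L : ℝ, L = ((J * q : ℕ) : ℝ) := ⟨_, rfl⟩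
      rw [← hL] at h3 hJq ⊢
      have hL1 : 1 ≤ L := by rw [hL]; exact_mod_cast hJq0
      obtain ⟨t, ht⟩ : ∃ t : ℝ, t = ((i : ℕ) : ℝ) := ⟨_, rfl⟩
      rw [← ht] at h3 ⊢
      have ht0 : 0 ≤ t := by rw [ht]; positivity
      have hw0 : 0 ≤ w := by rw [hw]; positivity
      have e2 : (1 - r) / (L + 1) * w = (1 - r) * w / (L + 1) := by ring
      rw [e2, div_le_div_iff₀ (by positivity) (by positivity)]
      have a1 : (t + 1) * L ≤ 8 * k * w := h3
      have a2 : t * (L + 1) ≤ 2 * ((t + 1) * L) := by nlinarith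
      have a3 : 1 / 2 * w ≤ (1 - r) * w := mul_le_mul_of_nonneg_right (by linarith) hw0
      have a4 : 1 / 2 * w * (32 * k) ≤ (1 - r) * w * (32 * k) :=
        mul_le_mul_of_nonneg_right a3 (by positivity)
      linarith
  have hsv_le : ∀ l, 1 ≤ l → sv lam r k l ^ 2 ≤ lam / r := by
    intro l hl
    rw [sv_sq hlam.le hr hl]
    refine div_le_div_of_nonneg_left hlam.le hr ?_
    have : 0 ≤ ((l - 2 : ℕ) : ℝ) / (32 * k) := by positivity
    linarith
  have hN : ∀ N ∈ Finset.Ico 1 n, ∑ u ∈ Gs,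
      C * VKs n k (mw r k (J * q) (srt (vl u))) β (sv lam r k) N ≤ Gs.card *
        (C * (24 / J + 4 / (J * (N * lam * r)) +
        2 * √(5 * Real.log (1 / r) / (J * (N * lam))) + 6400 * k / (J * (lam * N)))) := by
    intro N hN
    rw [Finset.mem_Ico] at hN
    have h0 : 0 < N := by omega
    have hN0 : (0 : ℝ) < N := by exact_mod_cast h0
    have hNn : (N : ℝ) ≤ n := by exact_mod_cast hN.2.le
    have hsm : ∀ i : Fin k, ((1 - r) / (((J * q : ℕ) : ℝ) + 1)) *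
        (N * sv lam r k ((i : ℕ) + 1 + 1) ^ 2) ≤ 1 := by
      intro i
      have b1 := hsv_le ((i : ℕ) + 1 + 1) (by omega)
      have b2 : (N : ℝ) * sv lam r k ((i : ℕ) + 1 + 1) ^ 2 ≤ q := by
        have c1 : (N : ℝ) * sv lam r k ((i : ℕ) + 1 + 1) ^ 2 ≤ N * (lam / r) :=
          mul_le_mul_of_nonneg_left b1 hN0.le
        have c2 : (N : ℝ) * (lam / r) ≤ n * (lam / r) :=
          mul_le_mul_of_nonneg_right hNn (by positivity)
        linarith
      have b3 : (1 - r) / (((J * q : ℕ) : ℝ) + 1) * (N * sv lam r k ((i : ℕ) + 1 + 1) ^ 2) ≤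
          (1 - r) / (((J * q : ℕ) : ℝ) + 1) * q :=
        mul_le_mul_of_nonneg_left b2 (by positivity)
      refine b3.trans ?_
      rw [div_mul_eq_mul_div, div_le_one (by positivity)]
      have b4 : (1 - r) * q ≤ 1 * q := mul_le_mul_of_nonneg_right (by linarith) hq0.le
      have b5 : (q : ℝ) ≤ ((J * q : ℕ) : ℝ) := by
        push_cast
        nlinarith
      linarith
    have h3 := sum_VK_le3 (β := β) (s := sv lam r k) hRho hN.2.le h0 sv_zero (fun l => sv_nonneg l)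
      (fun l hl _ => sv_pos hlam hr hl) hr hr1' hlam hJ hq hGs hGc hms hsm
    have e : ∀ u : Fin k → Fin (J * q), VKs n k (mw r k (J * q) (srt (vl u))) β (sv lam r k) N =
        VK n k (mw r k (J * q) (srt (vl u))) β hN.2.le (sv lam r k) := fun u => dif_pos hN.2.le
    simp_rw [e]
    rw [← Finset.mul_sum]
    have h4 : 2 / (J : ℝ) * (12 + 2 / (N * lam * r)) +
        2 * √(5 * Real.log (1 / r) / (J * (N * lam))) +
        3200 * k / (J * ((1 - r) * (lam * N))) ≤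
        24 / J + 4 / (J * (N * lam * r)) +
        2 * √(5 * Real.log (1 / r) / (J * (N * lam))) + 6400 * k / (J * (lam * N)) := by
      have a1 : 2 / (J : ℝ) * (12 + 2 / (N * lam * r)) =
          24 / J + 4 / (J * (N * lam * r)) := by
        field_simp
        ring
      have a2 : 3200 * k / (J * ((1 - r) * (lam * N))) ≤ 6400 * k / (J * (lam * N)) := by
        rw [div_le_div_iff₀ (by positivity) (by positivity)]
        have h6 : (0 : ℝ) ≤ 3200 * k * (J * (lam * N)) := by positivity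
        nlinarith
      rw [a1]
      linarith
    calc C * ∑ u ∈ Gs, VK n k (mw r k (J * q) (srt (vl u))) β hN.2.le (sv lam r k)
        ≤ C * (Gs.card * (24 / J + 4 / (J * (N * lam * r)) +
        2 * √(5 * Real.log (1 / r) / (J * (N * lam))) + 6400 * k / (J * (lam * N)))) :=
          mul_le_mul_of_nonneg_left (h3.trans (mul_le_mul_of_nonneg_left h4 hcard.le)) hC
      _ = _ := by ring
  have h7 := Finset.sum_le_sum hN
  rw [← Finset.mul_sum] at h7
  have h8 := hsum.trans (add_le_add le_rfl h7)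
  rw [← mul_add] at h8
  exact le_of_mul_le_mul_left h8 hcard

end Vale.Agent.P146.H394
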